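import Vale.Agent.N181.Parity
import Mathlib.RepresentationTheory.Intertwining

set_option autoImplicit false

/-!
# Foulkes' conjecture for new pairs below the square of `a - 1`
-/

open scoped TensorProduct

namespace Vale.Agent.N181

open Vale.Agent.P181 Vale.Agent.P181.H780 Vale.Agent.P181Z Vale.Agent.P181.H280
  Vale.Agent.P181.H421

universe u

/-- Tall shapes for `b = (a - 3) a + k`, `1 ≤ k ≤ a - 4`: all rows at least `2 a + k - 7`. -/
theorem tall_three {a k : ℕ} (hk : 1 ≤ k) (hka : k + 4 ≤ a) (ha : 7 ≤ a) (lam : Fin a → ℕ)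
    (h : ∀ i, 2 * a + k ≤ lam i + 7) :
    plethMult a ((a - 3) * a + k) a lam ≤ plethMult ((a - 3) * a + k) a a lam := by
  obtain ⟨q, rfl⟩ : ∃ q, a = q + 3 := ⟨a - 3, by omega⟩
  rw [Nat.add_sub_cancel]
  have hq : 4 ≤ q := by omega
  have hqq : 4 * (q + 3) ≤ q * (q + 3) := Nat.mul_le_mul_right _ hq
  have hdm : (q * (q + 3) + k) / (q + 3) = q ∧ (q * (q + 3) + k) % (q + 3) = k := by
    rw [Nat.div_mod_unique (by omega)]
    exact ⟨by ring, by omega⟩
  by_cases hlow : ∃ i : Fin (q + 3), (i : ℕ) < q + 3 ∧ lam i + (q + 3) < q * (q + 3) + k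
  · refine TQ.tallF (q + 3) _ (q + 3) (by omega) (by omega) le_rfl lam (by rw [hdm.2]; exact hk)
      (Or.inl (by rw [hdm.2]; exact hka)) (fun i _ => ?_) (Or.inr (Or.inr (Or.inr hlow)))
    rw [hdm.1, hdm.2]
    have h1 := h i
    omega
  · push Not at hlow
    refine TQ.tallG (q + 3) _ (q + 3) (by omega) (by omega) le_rfl lam (fun i hi => ?_)
    rw [hdm.1, hdm.2]
    have h1 := hlow i hi
    omega

/-- Even `a ≥ 12`, `b = (a - 1) ^ 2 - (a - 2) / 2`. -/
theorem mult_even {c : ℕ} (hc : 5 ≤ c) {b : ℕ} (hb : b + c = (2 * c + 1) ^ 2)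
    (lam : Fin (2 * c + 2) → ℕ) :
    plethMult (2 * c + 2) b (2 * c + 2) lam ≤ plethMult b (2 * c + 2) (2 * c + 2) lam := by
  refine mult_of_nil (m := 2 * c - 1) (by omega) (fun F hs hK =>
    nil_of_isK (hasRoots_of_forall_field _) hb (by omega) (by omega) hs hK) lam (fun h => ?_)
  obtain ⟨d, rfl⟩ : ∃ d, c = d + 1 := ⟨c - 1, by omega⟩
  have h1 : b = (2 * (d + 1) + 2 - 3) * (2 * (d + 1) + 2) + (d + 4) := by
    have h2 : 2 * (d + 1) + 2 - 3 = 2 * d + 1 := by omega
    rw [h2]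
    nlinarith
  rw [h1]
  refine tall_three (by omega) (by omega) (by omega) lam (fun i => ?_)
  have h3 := h i
  have h4 : 2 * (d + 1) - 1 - 1 = 2 * d := by omega
  rw [h4] at h3
  nlinarith

/-- `a ≡ 3 (mod 4)`, `a ≥ 11`, `b = (a - 1) ^ 2 - (a - 1) / 2`. -/
theorem mult_three {d : ℕ} (hd : 4 ≤ d) (hev : Even d) {b : ℕ}
    (hb : b + (d + 1) = (2 * d + 1 + 1) ^ 2) (lam : Fin (2 * d + 1 + 2) → ℕ) :
    plethMult (2 * d + 1 + 2) b (2 * d + 1 + 2) lam ≤
      plethMult b (2 * d + 1 + 2) (2 * d + 1 + 2) lam := by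
  have hodd : Odd b := by
    obtain ⟨t, rfl⟩ := hev
    exact ⟨8 * t ^ 2 + 7 * t + 1, by nlinarith⟩
  refine mult_of_nil (m := 2 * (d + 1) - 2) (by omega) (fun F hs hK =>
    nil_of_isK_odd (hasRoots_of_forall_field _) hb (by omega) (by omega) hodd hs hK) lam
    (fun h => ?_)
  have h1 : b = (2 * d + 1 + 2 - 3) * (2 * d + 1 + 2) + (d + 3) := by
    have h2 : 2 * d + 1 + 2 - 3 = 2 * d := by omega
    rw [h2]
    nlinarith
  rw [h1]
  refine tall_three (by omega) (by omega) (by omega) lam (fun i => ?_)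
  have h3 := h i
  obtain ⟨e, rfl⟩ : ∃ e, d = e + 1 := ⟨d - 1, by omega⟩
  have h4 : 2 * (e + 1 + 1) - 2 - 1 = 2 * e + 1 := by omega
  rw [h4] at h3
  nlinarith

/-- The pair `(10, 77)`. -/
theorem mult_ten (lam : Fin 10 → ℕ) : plethMult 10 77 10 lam ≤ plethMult 77 10 10 lam := by
  refine mult_of_nil (n := 8) (m := 2 * 4 - 2) (by omega) (fun F hs hK =>
    nil_of_isK_odd (hasRoots_of_forall_field _) (c := 4) (by norm_num) (by omega) (by omega)
      (by decide) hs hK) lam (fun h => ?_)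
  refine TQ.tallG 10 77 10 (by omega) (by omega) le_rfl lam (fun i _ => ?_)
  have h1 := h i
  omega

/-- The pair `(7, 33)`. -/
theorem mult_seven (lam : Fin 7 → ℕ) : plethMult 7 33 7 lam ≤ plethMult 33 7 7 lam := by
  refine mult_of_nil (n := 5) (m := 2 * 3 - 2) (by omega) (fun F hs hK =>
    nil_of_isK_odd (hasRoots_of_forall_field _) (c := 3) (by norm_num) (by omega) (by omega)
      (by decide) hs hK) lam (fun h => ?_)
  refine TQ.red_zero (c := 12) (s := 3) (by omega) le_rfl (by decide) (by omega) (by omega)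
    (by omega) lam (fun i _ => ?_)
  have h1 := h i
  omega

/-- Foulkes' inequality for `dim V = a` in the new range. -/
theorem mult_new {a b : ℕ} (ha : 7 ≤ a) (h8 : a ≠ 8) (h4 : a % 4 ≠ 1)
    (hab : (a - 1) ^ 2 ≤ b + (a - 1) / 2) (lam : Fin a → ℕ) :
    plethMult a b a lam ≤ plethMult b a a lam := by
  by_cases h0 : (a - 1) ^ 2 ≤ b + (a - 3) / 2
  · exact mult_near h0 lam
  have hb : b + (a - 1) / 2 = (a - 1) ^ 2 := by omega
  rcases Nat.even_or_odd' a with ⟨t, rfl | rfl⟩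
  · obtain ⟨c, rfl⟩ : ∃ c, t = c + 1 := ⟨t - 1, by omega⟩
    by_cases hc : c = 4
    · subst hc
      obtain rfl : b = 77 := by omega
      exact mult_ten lam
    · have h1 : (2 * (c + 1) - 1) / 2 = c := by omega
      have h2 : 2 * (c + 1) - 1 = 2 * c + 1 := by omega
      rw [h1, h2] at hb
      exact mult_even (by omega) hb lam
  · obtain ⟨d, rfl⟩ : ∃ d, t = d + 1 := ⟨t - 1, by omega⟩
    by_cases hd : d = 2
    · subst hd
      obtain rfl : b = 33 := by omega
      exact mult_seven lam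
    · have h1 : (2 * (d + 1) + 1 - 1) / 2 = d + 1 := by omega
      have h2 : 2 * (d + 1) + 1 - 1 = 2 * d + 1 + 1 := by omega
      rw [h1, h2] at hb
      exact mult_three (by omega) ⟨d / 2, by omega⟩ hb lam

theorem foulkes_new {a b : ℕ} (ha : 7 ≤ a) (h8 : a ≠ 8) (h4 : a % 4 ≠ 1)
    (hab : (a - 1) ^ 2 ≤ b + (a - 1) / 2) : H530.FoulkesInjection.{u} a b :=
  H530.foulkesInjection (fun lam _ _ => mult_new ha h8 h4 hab lam)

/-- The representation of the general linear group on an iterated symmetric power. -/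
noncomputable def rep (a b : ℕ) (V : Type u) [AddCommGroup V] [Module ℂ V]
    [FiniteDimensional ℂ V] :
    Representation ℂ (LinearMap.GeneralLinearGroup ℂ V) (Sym[ℂ]^a (Sym[ℂ]^b V)) where
  toFun g := symMap a (symMap b (g : V →ₗ[ℂ] V))
  map_one' := by
    apply pure_hom_ext
    intro v
    simp only [symMap_tprod]
    rfl
  map_mul' g h := by
    apply pure_hom_ext
    intro v
    rw [Module.End.mul_apply]
    simp only [symMap_tprod]
    rfl

lemma rep_tprod (a b : ℕ) (V : Type u) [AddCommGroup V] [Module ℂ V] [FiniteDimensional ℂ V]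
    (g : LinearMap.GeneralLinearGroup ℂ V) (v : Fin a → Fin b → V) :
    rep a b V g (SymmetricPower.tprod ℂ fun i => SymmetricPower.tprod ℂ fun j => v i j) =
      SymmetricPower.tprod ℂ fun i => SymmetricPower.tprod ℂ fun j => (g : V →ₗ[ℂ] V) (v i j) := by
  change symMap a (symMap b (g : V →ₗ[ℂ] V)) _ = _
  simp only [symMap_tprod]

end Vale.Agent.N181
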