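import Vale.Agent.P181Z.Near4

set_option autoImplicit false

/-!
# A parity gain for the nilpotency order of the canonical kernel

A symmetric form vanishes to even order along the diagonal of two arguments. Hence the nilpotency
order `m` of a symmetric form on forms of degree `b` drops by one if `b - m + 1` is odd.
-/

open Polynomial Finset
open scoped TensorProduct

namespace Vale.Agent.N181

open Vale.Agent.P181 Vale.Agent.P181.H780 Vale.Agent.P181Z Vale.Agent.P181.H280

section Forms

variable {A : Type*} [CommRing A] [Algebra ℂ A]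

/-- The lowest term of the expansion along the diagonal has even order. -/
lemma diag_odd_zero {L : Submodule ℂ A} {n b m : ℕ}
    {F : MultilinearMap ℂ (fun _ : Fin (n + 2) => A) ℂ} (hs : IsSymm F) (hN : Nil L b (m + 1) F)
    (hmb : m + 1 ≤ b) (hodd : Odd (b - m)) {θ η : A} (hθ : θ ∈ L) (hη : η ∈ L)
    {P : Fin n → A} (hP : ∀ i, P i ∈ L ^ b) :
    T2 F (θ ^ b) (θ ^ m * η ^ (b - m)) P = 0 := by
  obtain ⟨s, rfl⟩ : ∃ s, b = m + s := ⟨b - m, by omega⟩
  rw [Nat.add_sub_cancel_left] at hodd ⊢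
  have hu : ∀ t : ℂ, θ + t • η ∈ L := fun t => L.add_mem hθ (L.smul_mem _ hη)
  have hq : ∀ l : ℕ, ∃ q : ℂ[X], ∀ t : ℂ, q.eval t =
      T2 F ((θ + t • η) ^ (m + s)) ((θ + t • η) ^ (m + s - l) * η ^ l) P := by
    intro l
    obtain ⟨q, -, hq⟩ := exists_poly2 F (isCurve_pow θ η 1 (m + s))
      (isCurve_pow θ η (η ^ l) (m + s - l)) (fun i => isCurve_const (P i))
    exact ⟨q, fun t => by rw [hq, mul_one]⟩
  choose q hq using hq
  have hq0 : ∀ l, l < s → ∀ t : ℂ, (q l).eval t = 0 := by
    intro l hl t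
    rw [hq]
    have h1 : (θ + t • η) ^ (m + s - l) * η ^ l =
        (θ + t • η) ^ (m + 1) * ((θ + t • η) ^ (s - l - 1) * η ^ l) := by
      have h2 : m + s - l = (m + 1) + (s - l - 1) := by omega
      rw [h2, pow_add]
      ring
    rw [h1]
    refine hN _ (hu t) _ ?_ P hP
    have h3 : m + s - (m + 1) = (s - l - 1) + l := by omega
    rw [h3, pow_add]
    exact Submodule.mul_mem_mul (Submodule.pow_mem_pow _ (hu t) _) (Submodule.pow_mem_pow _ hη _)
  let ψ : ℂ[X] := ∑ l ∈ range (m + 1),
    C ((((m + s).choose (s + l) : ℂ)) * (-1) ^ (s + l) * 2 ^ (s + l)) * X ^ l * q (s + l)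
  have hφ : ∀ t : ℂ, T2 F ((θ + t • η) ^ (m + s)) ((θ + (-t) • η) ^ (m + s)) P =
      t ^ s * ψ.eval t := by
    intro t
    have h1 : θ + (-t) • η + (2 * t) • η = θ + t • η := by
      rw [add_assoc, ← add_smul]
      congr 2
      ring
    rw [expand_pow (θ + (-t) • η) η (2 * t) (m + s), h1, T2_sum_right]
    have h2 : m + s + 1 = s + (m + 1) := by omega
    rw [h2, Finset.sum_range_add, Finset.sum_eq_zero, zero_add, eval_finsetSum, Finset.mul_sum]
    · apply Finset.sum_congr rfl
      intro l _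
      rw [← hq, eval_mul, eval_mul, eval_C, eval_pow, eval_X]
      ring
    · intro l hl
      rw [← hq, hq0 l (Finset.mem_range.1 hl), mul_zero]
  have hev : X ^ s * (ψ.comp (-X) + ψ) = 0 := by
    apply Polynomial.funext
    intro t
    have h1 := hφ t
    have h2 := hφ (-t)
    rw [neg_neg, T2_swap hs, h1, hodd.neg_pow] at h2
    rw [eval_mul, eval_pow, eval_X, eval_add, eval_comp, eval_neg, eval_X, eval_zero]
    linear_combination h2
  have h3 := (mul_eq_zero.1 hev).resolve_left (pow_ne_zero _ X_ne_zero)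
  have h4 := congrArg (eval 0) h3
  rw [eval_add, eval_comp, eval_neg, eval_X, neg_zero, eval_zero] at h4
  have h5 : ψ.eval 0 = (((m + s).choose s : ℂ) * (-1) ^ s * 2 ^ s) * (q s).eval 0 := by
    simp only [ψ]
    rw [eval_finsetSum, Finset.sum_range_succ', Finset.sum_eq_zero, zero_add]
    · simp only [add_zero, pow_zero, mul_one, eval_mul, eval_C]
    · intro l _
      simp only [eval_mul, eval_C, eval_pow, eval_X, zero_pow (Nat.succ_ne_zero l), mul_zero,
        zero_mul]
  have h6 : (((m + s).choose s : ℂ) * (-1) ^ s * 2 ^ s) ≠ 0 := by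
    refine mul_ne_zero (mul_ne_zero ?_ (pow_ne_zero _ (by norm_num))) (pow_ne_zero _ two_ne_zero)
    exact_mod_cast (Nat.choose_pos (Nat.le_add_left s m)).ne'
  have h7 : (q s).eval 0 = 0 := by
    have h8 : ψ.eval 0 = 0 := by linear_combination (1 / 2 : ℂ) * h4
    rw [h5] at h8
    exact (mul_eq_zero.1 h8).resolve_left h6
  rw [hq, zero_smul, add_zero, Nat.add_sub_cancel] at h7
  exact h7

/-- **The parity gain.** -/
theorem nil_parity {L : Submodule ℂ A} {n b m : ℕ}
    {F : MultilinearMap ℂ (fun _ : Fin (n + 2) => A) ℂ} (hs : IsSymm F) (hN : Nil L b (m + 1) F)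
    (hmb : m + 1 ≤ b) (hodd : Odd (b - m)) : Nil L b m F := by
  intro θ hθ P₁ hP₁ P hP
  have h1 := pow_le_span_pow L _ hP₁
  clear hP₁
  induction h1 using Submodule.span_induction with
  | mem x hx =>
    obtain ⟨η, hη, rfl⟩ := hx
    exact diag_odd_zero hs hN hmb hodd hθ hη hP
  | zero => simp only [T2, mul_zero, map_zero, _root_.zero_apply]
  | add x y _ _ hx hy =>
    simp only [T2, mul_add, map_add, _root_.add_apply] at hx hy ⊢
    rw [hx, hy, add_zero]
  | smul c x _ hx => rw [mul_smul_comm, T2_smul_right, hx, mul_zero]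

end Forms

/-- The canonical map is injective on the highest weight vectors with a short row, given the
nilpotency order `m` of the forms of its kernel. -/
theorem inj_of_nil {n b m : ℕ} (hm : 1 ≤ m)
    (hnil : ∀ F : MultilinearMap ℂ (fun _ : Fin (n + 2) => ((Fin (n + 2) → ℂ) → ℂ)) ℂ, IsSymm F →
      IsK (linFun (Fin (n + 2) → ℂ)) b F → Nil (linFun (Fin (n + 2) → ℂ)) b m F)
    (lam : Fin (n + 2) → ℕ) (i₀ : Fin (n + 2)) (hlt : lam i₀ + (n + 1) * (m - 1) < b)
    (x : Sym[ℂ]^(n + 2) (Sym[ℂ]^b (Fin (n + 2) → ℂ)))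
    (hx : x ∈ hwSpace lam (plethAct (n + 2) b (n + 2)))
    (h0 : foulkesHowe (n + 2) b (Fin (n + 2) → ℂ) x = 0) : x = 0 := by
  classical
  obtain ⟨F, hs, hK, hF⟩ := exists_form x h0
  have hN := hnil F hs hK
  refine eq_zero_of_form x F hF (zero_of_pow _ b F ?_)
  intro θ' hθ'
  choose θ hθ using hθ'
  let e : Module.Dual ℂ (Fin (n + 2) → ℂ) := LinearMap.proj i₀
  let w : Fin (n + 2) → Module.Dual ℂ (Fin (n + 2) → ℂ) := fun j => θ j (Pi.single i₀ 1) • e
  let u : Fin (n + 2) → Module.Dual ℂ (Fin (n + 2) → ℂ) := fun j => θ j - w j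
  have hu0 : ∀ j, u j (Pi.single i₀ 1) = 0 := by
    intro j
    simp only [u, w, e, LinearMap.sub_apply, LinearMap.smul_apply, LinearMap.proj_apply,
      Pi.single_eq_same, smul_eq_mul, mul_one, sub_self]
  obtain ⟨j₀, s, hrel⟩ := exists_relation i₀ u hu0
  have hpow : ∀ η : Fin (n + 2) → Module.Dual ℂ (Fin (n + 2) → ℂ),
      F (fun j => (fun v => η j v) ^ b) =
        symEval (fun i => (symEval (fun _ : Fin b => η i) :
          (Sym[ℂ]^b (Fin (n + 2) → ℂ)) →ₗ[ℂ] ℂ)) x := by
    intro η
    rw [← hF (fun i _ => η i)]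
    congr 1
    funext j
    rw [Finset.prod_const, Finset.card_univ, Fintype.card_fin]
  have huw : ∀ j, ((fun v => u j v) + (fun v => w j v) : (Fin (n + 2) → ℂ) → ℂ) =
      fun v => θ j v := by
    intro j
    funext v
    simp only [u, Pi.add_apply, LinearMap.sub_apply, sub_add_cancel]
  have key := weight_zero hm hs hN (fun j v => u j v) (fun j v => w j v)
    (fun j => ⟨u j, rfl⟩) (fun j => ⟨w j, rfl⟩) j₀ s (by
      funext v
      rw [Finset.sum_apply]
      have h1 := LinearMap.congr_fun hrel v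
      rw [LinearMap.sum_apply] at h1
      exact h1) (lam := lam i₀) ?_ hlt
  · simp only [huw] at key
    rw [← key]
    congr 1
    funext j
    rw [hθ j]
  · intro τ hτ
    let g : Matrix (Fin (n + 2)) (Fin (n + 2)) ℂ := Matrix.diagonal (Function.update 1 i₀ τ)
    have hgd : ∀ i, g i i = Function.update (1 : Fin (n + 2) → ℂ) i₀ τ i :=
      fun i => Matrix.diagonal_apply_eq _ i
    have hg : IsBorel g := by
      refine ⟨fun i j hij => Matrix.diagonal_apply_ne _ hij.ne', fun i => ?_⟩
      rw [hgd]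
      by_cases hi : i = i₀
      · rw [hi, Function.update_self]
        exact hτ
      · rw [Function.update_of_ne hi]
        exact one_ne_zero
    have hprod : ∏ i, g i i ^ lam i = τ ^ lam i₀ := by
      rw [Finset.prod_eq_single i₀]
      · rw [hgd, Function.update_self]
      · intro i _ hi
        rw [hgd, Function.update_of_ne hi, Pi.one_apply, one_pow]
      · intro h
        exact absurd (Finset.mem_univ _) h
    have h2 : symMap (n + 2) (symMap b (Matrix.toLin' g)) x = (∏ i, g i i ^ lam i) • x := hx g hg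
    have h3 := symEval_symMap (Matrix.toLin' g) (fun i (_ : Fin b) => θ i) x
    rw [h2, map_smul, hprod, smul_eq_mul, ← hpow θ, ← hpow (fun i => θ i ∘ₗ Matrix.toLin' g)] at h3
    simp only [huw]
    rw [h3]
    congr 1
    funext j
    congr 1
    funext v
    have h4 : Matrix.toLin' g v = v + ((τ - 1) * v i₀) • Pi.single i₀ (1 : ℂ) := by
      funext i
      rw [Matrix.toLin'_apply, Matrix.mulVec_diagonal]
      by_cases hi : i = i₀
      · subst hi
        simp only [Function.update_self, Pi.add_apply, Pi.smul_apply, Pi.single_eq_same,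
          smul_eq_mul]
        ring
      · simp only [Function.update_of_ne hi, Pi.one_apply, Pi.add_apply, Pi.smul_apply,
          Pi.single_eq_of_ne hi, smul_eq_mul]
        ring
    simp only [u, w, e, Pi.add_apply, Pi.smul_apply, LinearMap.sub_apply, LinearMap.smul_apply,
      LinearMap.proj_apply, LinearMap.comp_apply, h4, map_add, map_smul, smul_eq_mul]
    ring

/-- For odd `b` the forms of the kernel have nilpotency order `2 c - 2`. -/
theorem nil_of_isK_odd {A : Type*} [CommRing A] [Algebra ℂ A] {L : Submodule ℂ A}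
    (hL : HasRoots L) {n b c : ℕ} (hbc : b + c = (n + 1) ^ 2) (hc : 1 ≤ c) (hcn : c ≤ n)
    (hb : Odd b) {F : MultilinearMap ℂ (fun _ : Fin (n + 2) => A) ℂ} (hs : IsSymm F)
    (hK : IsK L b F) : Nil L b (2 * c - 2) F := by
  have h1 := nil_of_isK hL hbc hc hcn hs hK
  have h2 : 2 * c - 1 = 2 * c - 2 + 1 := by omega
  rw [h2] at h1
  have h3 : (n + 1) ^ 2 = n * n + 2 * n + 1 := by ring
  have h4 : n ≤ n * n := Nat.le_mul_self n
  refine nil_parity hs h1 (by omega) ?_
  obtain ⟨t, ht⟩ := hb
  exact ⟨t - (c - 1), by omega⟩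

/-- Foulkes' inequality from a bound for the rows of the kernel and a theorem for tall shapes. -/
theorem mult_of_nil {n b m : ℕ} (hm : 1 ≤ m)
    (hnil : ∀ F : MultilinearMap ℂ (fun _ : Fin (n + 2) => ((Fin (n + 2) → ℂ) → ℂ)) ℂ, IsSymm F →
      IsK (linFun (Fin (n + 2) → ℂ)) b F → Nil (linFun (Fin (n + 2) → ℂ)) b m F)
    (lam : Fin (n + 2) → ℕ)
    (htall : (∀ i, b ≤ lam i + (n + 1) * (m - 1)) →
      plethMult (n + 2) b (n + 2) lam ≤ plethMult b (n + 2) (n + 2) lam) :
    plethMult (n + 2) b (n + 2) lam ≤ plethMult b (n + 2) (n + 2) lam := by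
  by_cases hlow : ∃ i₀, lam i₀ + (n + 1) * (m - 1) < b
  · obtain ⟨i₀, hi₀⟩ := hlow
    exact finrank_le_of_inj (foulkesHowe (n + 2) b (Fin (n + 2) → ℂ)) _ _
      (fun x hx => H536.foulkesHowe_hwSpace lam x hx)
      (fun x hx h0' => inj_of_nil hm hnil lam i₀ hi₀ x hx h0')
  · push Not at hlow
    exact htall hlow

end Vale.Agent.N181
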